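import Vale.Agent.Lib.P040M.Core

/-!
The core inequality for arbitrary points of the cycle of length `N`: for points `P r z`, `Q s z`,
`zar m * D ≤ ∑_{r<s} ∑_z cd N (P r z) (Q s z)` as soon as `D ≤ ∑_z cd N (P t z) (Q t z)` for every `t`.
-/

namespace Vale.Agent.Lib.P040T

open Finset Vale.Agent.Lib.P040 Vale.Agent.Lib.P040M

/-- Distance of `x` and `y` on the cycle of length `N`. -/
def cd (N x y : ℕ) : ℕ := min (max x y - min x y) (N - (max x y - min x y))

theorem bit_ne_comm (N i x y : ℕ) : (bit N i x ≠ bit N i y) ↔ (bit N i y ≠ bit N i x) :=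
  ⟨fun h h' => h h'.symm, fun h h' => h h'.symm⟩

/-- `2 cd` as a sum over cuts. -/
theorem two_cd (N x y : ℕ) (hx : x ≤ N) (hy : y ≤ N) :
    2 * cd N x y = ∑ i ∈ range N, (if bit N i (2 * x) ≠ bit N i (2 * y) then 1 else 0) := by
  rcases le_total x y with hxy | hxy
  · rw [cut_lemma N (2 * x) (2 * y) (by omega) (by omega)]
    unfold cd
    rw [max_eq_right hxy, min_eq_left hxy]
    omega
  · have : ∀ i ∈ range N, (if bit N i (2 * x) ≠ bit N i (2 * y) then 1 else 0)
        = (if bit N i (2 * y) ≠ bit N i (2 * x) then 1 else 0) := by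
      intro i _
      by_cases h : bit N i (2 * x) = bit N i (2 * y)
      · simp [h]
      · have h' : ¬ bit N i (2 * y) = bit N i (2 * x) := fun e => h e.symm
        simp [h, h']
    rw [Finset.sum_congr rfl this, cut_lemma N (2 * y) (2 * x) (by omega) (by omega)]
    unfold cd
    rw [max_eq_left hxy, min_eq_right hxy]
    omega

/-- Per blue vertex: cycle distances. -/
theorem per_z_circle (m N : ℕ) (p q : Fin m → ℕ) (hp : ∀ r, p r ≤ N) (hq : ∀ r, q r ≤ N) :
    ∑ r : Fin m, w m r * cd N (p r) (q r)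
      ≤ ∑ r : Fin m, ∑ s : Fin m, if r < s then cd N (p r) (q s) else 0 := by
  have key : 2 * ∑ r : Fin m, w m r * cd N (p r) (q r)
      ≤ 2 * ∑ r : Fin m, ∑ s : Fin m, if r < s then cd N (p r) (q s) else 0 := by
    calc 2 * ∑ r : Fin m, w m r * cd N (p r) (q r)
        = ∑ i ∈ range N, ∑ r : Fin m, w m r *
            (if bit N i (2 * p r) ≠ bit N i (2 * q r) then 1 else 0) := by
          rw [Finset.sum_comm, Finset.mul_sum]
          refine Finset.sum_congr rfl fun r _ => ?_
          rw [← Finset.mul_sum, ← two_cd N (p r) (q r) (hp r) (hq r)]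
          ring
      _ ≤ ∑ i ∈ range N, ∑ r : Fin m, ∑ s : Fin m,
            if r < s then (if bit N i (2 * p r) ≠ bit N i (2 * q s) then 1 else 0) else 0 :=
          Finset.sum_le_sum fun i _ => bit_lemma m (fun r => bit N i (2 * p r))
            (fun s => bit N i (2 * q s))
      _ = 2 * ∑ r : Fin m, ∑ s : Fin m, if r < s then cd N (p r) (q s) else 0 := by
          rw [Finset.sum_comm, Finset.mul_sum]
          refine Finset.sum_congr rfl fun r _ => ?_
          rw [Finset.sum_comm, Finset.mul_sum]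
          refine Finset.sum_congr rfl fun s _ => ?_
          by_cases hrs : r < s
          · simp only [hrs, if_true]
            rw [two_cd N (p r) (q s) (hp r) (hq s)]
          · simp [hrs]
  omega

/-- The whole sum, for arbitrary points of the cycle. -/
theorem core_circle (m n N D : ℕ) (P Q : Fin m → Fin n → ℕ) (hP : ∀ r z, P r z ≤ N)
    (hQ : ∀ r z, Q r z ≤ N) (hd : ∀ t, D ≤ ∑ z : Fin n, cd N (P t z) (Q t z)) :
    zar m * D ≤ ∑ r : Fin m, ∑ s : Fin m,
      if r < s then ∑ z : Fin n, cd N (P r z) (Q s z) else 0 := by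
  calc zar m * D = ∑ r : Fin m, w m r * D := by
        rw [← sum_w_fin, Finset.sum_mul]
    _ ≤ ∑ r : Fin m, w m r * ∑ z : Fin n, cd N (P r z) (Q r z) :=
        Finset.sum_le_sum fun r _ => Nat.mul_le_mul_left _ (hd r)
    _ = ∑ z : Fin n, ∑ r : Fin m, w m r * cd N (P r z) (Q r z) := by
        rw [Finset.sum_comm]
        exact Finset.sum_congr rfl fun r _ => Finset.mul_sum _ _ _
    _ ≤ ∑ z : Fin n, ∑ r : Fin m, ∑ s : Fin m, if r < s then cd N (P r z) (Q s z) else 0 :=
        Finset.sum_le_sum fun z _ => per_z_circle m N (fun r => P r z) (fun s => Q s z)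
          (fun r => hP r z) (fun s => hQ s z)
    _ = ∑ r : Fin m, ∑ s : Fin m, if r < s then ∑ z : Fin n, cd N (P r z) (Q s z) else 0 := by
        rw [Finset.sum_comm]
        refine Finset.sum_congr rfl fun r _ => ?_
        rw [Finset.sum_comm]
        refine Finset.sum_congr rfl fun s _ => ?_
        by_cases hrs : r < s
        · simp [hrs]
        · simp [hrs]

end Vale.Agent.Lib.P040T
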