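import Mathlib

/-!
The per-label inequality: for `h(g) = min g (N - g)`, `w_s = min s (m - 1 - s)`,
`∑_{r<s} h (x r + y s) ≥ ∑_s w_s h (x s + y s)`.
Half-circle cuts reduce it to bits; for bits it follows from a walk potential.
-/

open Finset

namespace Vale.Agent.Lib.P040T

/-- The height `min g (N - g)`, the distance of `g` to `{0, N}`. -/
def hh (N g : ℕ) : ℕ := min g (N - g)

/-- The weight of position `s` among `m` positions. -/
def wt (m s : ℕ) : ℕ := min s (m - 1 - s)

/-- The sign of a bit. -/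
def sg (b : Bool) : ℤ := if b then 1 else -1

/-- Prefix sum of the signs. -/
def PP (u : ℕ → Bool) (j : ℕ) : ℤ := ∑ r ∈ range j, sg (u r)

lemma PP_succ (u : ℕ → Bool) (j : ℕ) : PP u (j + 1) = PP u j + sg (u j) := by
  simp [PP, sum_range_succ]

lemma two_count (u : ℕ → Bool) (b : Bool) (s : ℕ) :
    2 * (∑ r ∈ range s, (if u r ≠ b then (1 : ℤ) else 0)) = s - sg b * PP u s := by
  induction s with
  | zero => simp [PP]
  | succ k ih =>
    rw [sum_range_succ, mul_add, ih, PP_succ]
    cases hu : u k <;> cases b <;> simp [sg] <;> ring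

lemma abs_PP_le (u : ℕ → Bool) (j : ℕ) : |PP u j| ≤ j := by
  induction j with
  | zero => simp [PP]
  | succ k ih =>
    rw [PP_succ]
    have h1 : |sg (u k)| ≤ 1 := by cases u k <;> simp [sg]
    calc |PP u k + sg (u k)| ≤ |PP u k| + |sg (u k)| := abs_add_le _ _
      _ ≤ ((k + 1 : ℕ) : ℤ) := by push_cast; linarith

lemma sum_Q (u : ℕ → Bool) (j : ℕ) :
    2 * (∑ s ∈ range j, sg (u s) * PP u s) = PP u j ^ 2 - j := by
  induction j with
  | zero => simp [PP]
  | succ k ih =>
    rw [sum_range_succ, mul_add, ih, PP_succ]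
    cases u k <;> simp [sg] <;> ring

lemma PP_parity (u : ℕ → Bool) (j : ℕ) : ∃ c : ℤ, PP u j = j + 2 * c := by
  induction j with
  | zero => exact ⟨0, by simp [PP]⟩
  | succ k ih =>
    obtain ⟨c, hc⟩ := ih
    rw [PP_succ, hc]
    cases u k
    · exact ⟨c - 1, by simp [sg]; ring⟩
    · exact ⟨c, by simp [sg]; ring⟩

/-- `n^2 / 4`. -/
def qs (n : ℕ) : ℤ := ((n ^ 2 / 4 : ℕ) : ℤ)

lemma qs_add_two (n : ℕ) : qs (n + 2) = qs n + n + 1 := by
  unfold qs
  have h : (n + 2) ^ 2 = n ^ 2 + 4 * (n + 1) := by ring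
  rw [h, Nat.add_mul_div_left _ _ (by norm_num : 0 < 4)]
  push_cast
  ring

lemma qs_nonneg (n : ℕ) : 0 ≤ qs n := by unfold qs; positivity

lemma qs_zero : qs 0 = 0 := by simp [qs]

lemma qs_step (e : ℤ) : max (e + 1) 0 + qs e.toNat ≤ qs (e + 2).toNat := by
  rcases lt_or_ge e 0 with he | he
  · have h1 : e.toNat = 0 := by omega
    have h2 : max (e + 1) 0 = 0 := by
      apply max_eq_right; omega
    rw [h1, h2, qs_zero]
    simpa using qs_nonneg _
  · obtain ⟨n, rfl⟩ := Int.eq_ofNat_of_zero_le he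
    have h1 : ((n : ℤ)).toNat = n := by simp
    have h2 : ((n : ℤ) + 2).toNat = n + 2 := by omega
    rw [h1, h2, qs_add_two, max_eq_left (by omega)]
    linarith

lemma step_abs (P ε : ℤ) (hε : ε = 1 ∨ ε = -1) :
    (|P + ε| = |P| + 1 ∧ ε * P = |P|) ∨ (|P + ε| = |P| - 1 ∧ ε * P = -|P|) := by
  rcases hε with rfl | rfl
  · rcases lt_or_ge P 0 with h | h
    · right
      rw [abs_of_neg h]
      constructor
      · rw [abs_of_nonpos (by omega)]; ring
      · ring
    · left
      rw [abs_of_nonneg h, abs_of_nonneg (by omega)]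
      constructor <;> ring
  · rcases le_or_gt P 0 with h | h
    · left
      rw [abs_of_nonpos h, abs_of_nonpos (by omega)]
      constructor <;> ring
    · right
      rw [abs_of_pos h, abs_of_nonneg (by omega)]
      constructor <;> ring

lemma sg_eq (b : Bool) : sg b = 1 ∨ sg b = -1 := by cases b <;> simp [sg]

/-- The walk potential. -/
lemma walk_bound (u : ℕ → Bool) (m j : ℕ) (hj : j ≤ m) :
    ∑ s ∈ range j, max (sg (u s) * PP u s - (wt m s : ℤ)) 0
      ≤ qs (|PP u j| + j - m).toNat := by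
  induction j with
  | zero =>
    have h0 : (|PP u 0| + ((0 : ℕ) : ℤ) - (m : ℤ)).toNat = 0 := by
      simp [PP]
    rw [h0, qs_zero]
    simp
  | succ k ih =>
    have hk : k < m := hj
    have ih' := ih (by omega)
    rw [sum_range_succ]
    have hp := abs_PP_le u k
    have hp0 := abs_nonneg (PP u k)
    set P := PP u k with hP
    have hw0 : (0 : ℤ) ≤ (wt m k : ℤ) := by positivity
    rcases step_abs P (sg (u k)) (sg_eq _) with ⟨h1, h2⟩ | ⟨h1, h2⟩
    · rw [h2]
      have h3 : |PP u (k + 1)| + ((k + 1 : ℕ) : ℤ) - m = (|P| + k - m) + 2 := by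
        rw [PP_succ, h1]; push_cast; ring
      rw [h3]
      have h4 := qs_step (|P| + k - m)
      have h5 : max (|P| - (wt m k : ℤ)) 0 ≤ max (|P| + k - m + 1) 0 := by
        apply max_le _ (le_max_right _ _)
        rcases le_total k (m - 1 - k) with h | h
        · have : (wt m k : ℤ) = k := by simp [wt, h]
          rw [this]
          exact le_trans (by linarith) (le_max_right _ _)
        · have : (wt m k : ℤ) = ((m - 1 - k : ℕ) : ℤ) := by simp [wt, h]
          rw [this]
          have h6 : ((m - 1 - k : ℕ) : ℤ) = (m : ℤ) - 1 - k := by omega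
          rw [h6]
          exact le_trans (by linarith) (le_max_left _ _)
      linarith
    · rw [h2]
      have h3 : |PP u (k + 1)| + ((k + 1 : ℕ) : ℤ) - m = |P| + k - m := by
        rw [PP_succ, h1]; push_cast; ring
      rw [h3]
      have h5 : max (-|P| - (wt m k : ℤ)) 0 = 0 := by
        apply max_eq_right; linarith
      rw [h5]
      linarith

lemma sum_wt (m : ℕ) : ∑ s ∈ range m, wt m s = (m / 2) * ((m - 1) / 2) := by
  induction m using Nat.twoStepInduction with
  | zero => simp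
  | one => simp [wt]
  | more m ih _ =>
    rw [sum_range_succ, sum_range_succ']
    have h1 : wt (m + 2) (m + 1) = 0 := by simp [wt]
    have h2 : wt (m + 2) 0 = 0 := by simp [wt]
    have h3 : ∑ s ∈ range m, wt (m + 2) (s + 1) = ∑ s ∈ range m, (wt m s + 1) := by
      apply sum_congr rfl
      intro s hs
      have hs' : s < m := mem_range.mp hs
      simp only [wt]
      omega
    rw [h1, h2, h3, sum_add_distrib, ih]
    simp only [sum_const, card_range, smul_eq_mul, mul_one, add_zero]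
    rcases Nat.even_or_odd' m with ⟨c, rfl | rfl⟩
    · have a1 : (2 * c + 2) / 2 = c + 1 := by omega
      have a2 : (2 * c + 2 - 1) / 2 = c := by omega
      have a3 : 2 * c / 2 = c := by omega
      have a4 : (2 * c - 1) / 2 = c - 1 := by omega
      rw [a1, a2, a3, a4]
      cases c with
      | zero => simp
      | succ d => simp; ring
    · have a1 : (2 * c + 1 + 2) / 2 = c + 1 := by omega
      have a2 : (2 * c + 1 + 2 - 1) / 2 = c + 1 := by omega
      have a3 : (2 * c + 1) / 2 = c := by omega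
      have a4 : (2 * c + 1 - 1) / 2 = c := by omega
      rw [a1, a2, a3, a4]
      ring

lemma sum_id (m : ℕ) : 2 * ∑ s ∈ range m, (s : ℤ) = m * (m - 1) := by
  induction m with
  | zero => simp
  | succ k ih =>
    rw [sum_range_succ, mul_add, ih]
    push_cast
    ring

/-- Numerics at the end of the walk. -/
lemma final_num (m : ℕ) (P : ℤ) (hP : ∃ c : ℤ, P = m + 2 * c) :
    0 ≤ (m : ℤ) * (m - 1) - 4 * (((m / 2) * ((m - 1) / 2) : ℕ) : ℤ) + (P ^ 2 - m)
      - 4 * qs (|P| + m - m).toNat := by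
  have h0 : (|P| + (m : ℤ) - m).toNat = |P|.toNat := by
    congr 1; ring
  rw [h0]
  have hs : P ^ 2 = (|P| ^ 2) := (sq_abs P).symm
  obtain ⟨a, ha⟩ := Int.eq_ofNat_of_zero_le (abs_nonneg P)
  rw [hs, ha]
  simp only [Int.toNat_natCast]
  obtain ⟨c, hc⟩ := hP
  have hpar : ((a : ℤ) + m) % 2 = 0 := by
    rcases abs_choice P with h | h
    · rw [h] at ha; rw [← ha, hc]; omega
    · rw [h] at ha; rw [← ha, hc]; omega
  rcases Nat.even_or_odd' m with ⟨t, rfl | rfl⟩
  · obtain ⟨b, rfl⟩ : ∃ b, a = 2 * b := ⟨a / 2, by omega⟩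
    have q1 : qs (2 * b) = (b : ℤ) ^ 2 := by
      unfold qs
      have : (2 * b) ^ 2 / 4 = b ^ 2 := by
        have : (2 * b) ^ 2 = 4 * b ^ 2 := by ring
        rw [this]; simp
      rw [this]; push_cast; ring
    have a3 : 2 * t / 2 = t := by omega
    have a4 : (2 * t - 1) / 2 = t - 1 := by omega
    rw [q1, a3, a4]
    cases t with
    | zero => simp; nlinarith
    | succ d =>
      simp only [Nat.add_sub_cancel]
      push_cast
      nlinarith
  · obtain ⟨b, rfl⟩ : ∃ b, a = 2 * b + 1 := ⟨a / 2, by omega⟩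
    have q1 : qs (2 * b + 1) = (b : ℤ) ^ 2 + b := by
      unfold qs
      have : (2 * b + 1) ^ 2 / 4 = b ^ 2 + b := by
        have : (2 * b + 1) ^ 2 = 1 + 4 * (b ^ 2 + b) := by ring
        rw [this, Nat.add_mul_div_left _ _ (by norm_num : 0 < 4)]
        simp
      rw [this]; push_cast; ring
    have a3 : (2 * t + 1) / 2 = t := by omega
    have a4 : (2 * t + 1 - 1) / 2 = t := by omega
    rw [q1, a3, a4]
    push_cast
    nlinarith

/-- The inequality for bits. -/
theorem bool_L (m : ℕ) (u v : ℕ → Bool) :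
    ∑ s ∈ range m, (wt m s : ℤ) * (if u s ≠ v s then (1 : ℤ) else 0)
      ≤ ∑ s ∈ range m, ∑ r ∈ range s, (if u r ≠ v s then (1 : ℤ) else 0) := by
  -- each position
  have hstep : ∀ s ∈ range m,
      (s : ℤ) - 2 * (wt m s : ℤ) + sg (u s) * PP u s
          - 2 * max (sg (u s) * PP u s - (wt m s : ℤ)) 0
        ≤ 2 * (∑ r ∈ range s, (if u r ≠ v s then (1 : ℤ) else 0))
          - 2 * ((wt m s : ℤ) * (if u s ≠ v s then (1 : ℤ) else 0)) := by
    intro s _
    rw [two_count]
    set Q := sg (u s) * PP u s with hQ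
    have hm1 := le_max_left (Q - (wt m s : ℤ)) 0
    have hm2 := le_max_right (Q - (wt m s : ℤ)) 0
    by_cases h : u s = v s
    · rw [← h]
      simp only [ne_eq, not_true_eq_false, if_false, mul_zero]
      rw [← hQ]
      linarith
    · have hv : sg (v s) * PP u s = - Q := by
        rw [hQ]
        cases hu : u s <;> cases hv : v s <;> simp_all [sg]
      rw [hv]
      simp only [ne_eq, h, not_false_eq_true, if_true, mul_one]
      linarith
  have hsum := sum_le_sum hstep
  simp only [sum_sub_distrib, sum_add_distrib, ← mul_sum] at hsum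
  have h1 := sum_Q u m
  have h2 := walk_bound u m m le_rfl
  have h3 := sum_id m
  have h4 : ∑ s ∈ range m, (wt m s : ℤ) = (((m / 2) * ((m - 1) / 2) : ℕ) : ℤ) := by
    rw [← sum_wt]; push_cast; rfl
  have h5 := final_num m (PP u m) (PP_parity u m)
  rw [h4] at hsum
  linarith


/-- The half-circle cut. -/
def cc (N τ : ℕ) : Bool := decide (τ % (2 * N) < N)

lemma cc_period (N τ : ℕ) : cc N (τ + 2 * N) = cc N τ := by
  simp [cc]

lemma cc_add_N (N τ : ℕ) (hN : 0 < N) : cc N (τ + N) = !cc N τ := by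
  unfold cc
  have h2 : 0 < 2 * N := by omega
  have hr := Nat.mod_lt τ h2
  have h3 : N % (2 * N) = N := Nat.mod_eq_of_lt (by omega)
  rw [Nat.add_mod, h3]
  set r := τ % (2 * N)
  by_cases h : r < N
  · rw [Nat.mod_eq_of_lt (by omega)]
    simp [h]
  · have h4 : (r + N) % (2 * N) = r - N := by
      rw [Nat.mod_eq_sub_mod (by omega), Nat.mod_eq_of_lt (by omega)]
      omega
    rw [h4]
    have h5 : r - N < N := by omega
    simp [h, h5]

/-- Sums over a period are shift invariant. -/
lemma sum_shift (L : ℕ) (f : ℕ → ℕ) (hf : ∀ x, f (x + L) = f x) (t : ℕ) :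
    ∑ θ ∈ range L, f (θ + t) = ∑ θ ∈ range L, f θ := by
  induction t with
  | zero => simp
  | succ k ih =>
    rw [← ih]
    have h1 := sum_range_succ (fun θ => f (θ + k)) L
    have h2 := sum_range_succ' (fun θ => f (θ + k)) L
    have h3 : f (L + k) = f (0 + k) := by
      rw [add_comm L k, hf, zero_add]
    have h4 : ∀ θ, f (θ + 1 + k) = f (θ + (k + 1)) := by
      intro θ; congr 1; ring
    simp only [h4] at h2
    omega

lemma cc_small (N τ : ℕ) (_hN : 0 < N) (h : τ < 4 * N) :
    cc N τ = decide (τ < N ∨ (2 * N ≤ τ ∧ τ < 3 * N)) := by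
  unfold cc
  congr 1
  apply propext
  by_cases h1 : τ < 2 * N
  · rw [Nat.mod_eq_of_lt h1]
    omega
  · rw [Nat.mod_eq_sub_mod (by omega), Nat.mod_eq_of_lt (by omega)]
    omega

/-- Count of the cut over half a period. -/
lemma half_count (N g : ℕ) (hN : 0 < N) (hg : g ≤ N) :
    ∑ θ ∈ range N, (if cc N (θ + 2 * g) ≠ cc N θ then 1 else 0) = 2 * hh N g := by
  have h1 : ∀ θ ∈ range N, (cc N (θ + 2 * g) ≠ cc N θ) ↔ (N ≤ θ + 2 * g ∧ θ + 2 * g < 2 * N) := by
    intro θ hθ
    have hθ' : θ < N := mem_range.mp hθ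
    rw [cc_small N (θ + 2 * g) hN (by omega), cc_small N θ hN (by omega)]
    have h2 : decide (θ < N ∨ (2 * N ≤ θ ∧ θ < 3 * N)) = true := by
      simp [hθ']
    rw [h2]
    simp only [ne_eq, decide_eq_true_eq, not_or, not_and, not_lt]
    constructor
    · rintro ⟨a, b⟩
      refine ⟨a, ?_⟩
      by_contra hc
      have := b (by omega)
      omega
    · rintro ⟨a, b⟩
      exact ⟨a, fun c => by omega⟩
  have h2 : ∑ θ ∈ range N, (if cc N (θ + 2 * g) ≠ cc N θ then 1 else 0)
      = ((range N).filter (fun θ => N ≤ θ + 2 * g ∧ θ + 2 * g < 2 * N)).card := by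
    rw [card_filter]
    apply sum_congr rfl
    intro θ hθ
    by_cases hc : N ≤ θ + 2 * g ∧ θ + 2 * g < 2 * N
    · rw [if_pos ((h1 θ hθ).mpr hc), if_pos hc]
    · rw [if_neg (fun h => hc ((h1 θ hθ).mp h)), if_neg hc]
  rw [h2]
  have h3 : (range N).filter (fun θ => N ≤ θ + 2 * g ∧ θ + 2 * g < 2 * N)
      = Ico (N - 2 * g) (min N (2 * N - 2 * g)) := by
    ext θ
    simp only [mem_filter, mem_range, mem_Ico]
    omega
  rw [h3, Nat.card_Ico]
  unfold hh
  omega

/-- Count of the cut over a full period, with a shift. -/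
lemma sep_count (N a g : ℕ) (hN : 0 < N) (hg : g ≤ N) :
    ∑ θ ∈ range (2 * N), (if cc N (θ + 2 * (a + g)) ≠ cc N (θ + 2 * a) then 1 else 0)
      = 4 * hh N g := by
  set f : ℕ → ℕ := fun τ => if cc N (τ + 2 * g) ≠ cc N τ then 1 else 0 with hf
  have hper : ∀ x, f (x + 2 * N) = f x := by
    intro x
    simp only [hf]
    have h1 : x + 2 * N + 2 * g = x + 2 * g + 2 * N := by ring
    rw [h1, cc_period, cc_period]
  have hshift := sum_shift (2 * N) f hper (2 * a)
  have h1 : ∀ θ, (if cc N (θ + 2 * (a + g)) ≠ cc N (θ + 2 * a) then 1 else 0) = f (θ + 2 * a) := by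
    intro θ
    simp only [hf]
    have : θ + 2 * (a + g) = θ + 2 * a + 2 * g := by ring
    rw [this]
  simp only [h1]
  rw [hshift]
  have h2 : 2 * N = N + N := by ring
  rw [h2, sum_range_add]
  have h3 : ∀ x, f (N + x) = f x := by
    intro x
    simp only [hf]
    have h4 : N + x + 2 * g = x + 2 * g + N := by ring
    have h5 : N + x = x + N := by ring
    rw [h4, h5, cc_add_N N _ hN, cc_add_N N _ hN]
    cases cc N (x + 2 * g) <;> cases cc N x <;> simp
  simp only [h3]
  have h6 := half_count N g hN hg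
  have h7 : ∑ θ ∈ range N, f θ = 2 * hh N g := h6
  rw [h7]
  ring

/-- The per-label inequality. -/
theorem per_label (m N : ℕ) (x y : ℕ → ℕ) (hxy : ∀ r < m, ∀ s < m, x r + y s ≤ N) :
    ∑ s ∈ range m, wt m s * hh N (x s + y s)
      ≤ ∑ s ∈ range m, ∑ r ∈ range s, hh N (x r + y s) := by
  rcases Nat.eq_zero_or_pos N with rfl | hN
  · simp [hh]
  -- the bits
  let U : ℕ → ℕ → Bool := fun θ r => cc N (θ + 2 * (N + x r))
  let V : ℕ → ℕ → Bool := fun θ s => cc N (θ + 2 * (N - y s))
  have hcount : ∀ r < m, ∀ s < m,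
      ∑ θ ∈ range (2 * N), (if U θ r ≠ V θ s then 1 else 0) = 4 * hh N (x r + y s) := by
    intro r hr s hs
    have h1 := hxy r hr s hs
    have h2 := sep_count N (N - y s) (x r + y s) hN h1
    have h3 : N - y s + (x r + y s) = N + x r := by omega
    rw [h3] at h2
    exact h2
  have hL : ∀ θ ∈ range (2 * N),
      ∑ s ∈ range m, (wt m s : ℤ) * (if U θ s ≠ V θ s then (1 : ℤ) else 0)
        ≤ ∑ s ∈ range m, ∑ r ∈ range s, (if U θ r ≠ V θ s then (1 : ℤ) else 0) :=
    fun θ _ => bool_L m (U θ) (V θ)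
  have hsum := sum_le_sum hL
  rw [sum_comm] at hsum
  have hleft : ∑ s ∈ range m, ∑ θ ∈ range (2 * N),
        (wt m s : ℤ) * (if U θ s ≠ V θ s then (1 : ℤ) else 0)
      = 4 * ((∑ s ∈ range m, wt m s * hh N (x s + y s) : ℕ) : ℤ) := by
    push_cast
    rw [mul_sum]
    apply sum_congr rfl
    intro s hs
    have hs' := mem_range.mp hs
    rw [← mul_sum]
    have h1 := hcount s hs' s hs'
    have h2 : ∑ θ ∈ range (2 * N), (if U θ s ≠ V θ s then (1 : ℤ) else 0)
        = ((4 * hh N (x s + y s) : ℕ) : ℤ) := by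
      rw [← h1]; push_cast; rfl
    rw [h2]
    push_cast
    ring
  have hright : ∑ θ ∈ range (2 * N), ∑ s ∈ range m, ∑ r ∈ range s,
        (if U θ r ≠ V θ s then (1 : ℤ) else 0)
      = 4 * ((∑ s ∈ range m, ∑ r ∈ range s, hh N (x r + y s) : ℕ) : ℤ) := by
    rw [sum_comm]
    push_cast
    rw [mul_sum]
    apply sum_congr rfl
    intro s hs
    have hs' := mem_range.mp hs
    rw [sum_comm, mul_sum]
    apply sum_congr rfl
    intro r hr
    have hr' : r < m := lt_trans (mem_range.mp hr) hs'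
    have h1 := hcount r hr' s hs'
    have h2 : ∑ θ ∈ range (2 * N), (if U θ r ≠ V θ s then (1 : ℤ) else 0)
        = ((4 * hh N (x r + y s) : ℕ) : ℤ) := by
      rw [← h1]; push_cast; rfl
    rw [h2]
    push_cast
    ring
  rw [hleft, hright] at hsum
  have h := le_of_mul_le_mul_left hsum (by norm_num : (0 : ℤ) < 4)
  exact_mod_cast h

/-- Summed over the labels. -/
theorem sum_bound (m N n : ℕ) (a b : ℕ → ℕ → ℕ)
    (hab : ∀ r < m, ∀ s < m, ∀ z < n, a r z + b s z ≤ N) (D : ℕ)
    (hD : ∀ s < m, D ≤ ∑ z ∈ range n, hh N (a s z + b s z)) :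
    (m / 2) * ((m - 1) / 2) * D
      ≤ ∑ s ∈ range m, ∑ r ∈ range s, ∑ z ∈ range n, hh N (a r z + b s z) := by
  have h1 : ∀ z ∈ range n,
      ∑ s ∈ range m, wt m s * hh N (a s z + b s z)
        ≤ ∑ s ∈ range m, ∑ r ∈ range s, hh N (a r z + b s z) := by
    intro z hz
    exact per_label m N (fun r => a r z) (fun s => b s z)
      (fun r hr s hs => hab r hr s hs z (mem_range.mp hz))
  have h2 := sum_le_sum h1
  have h3 : ∑ z ∈ range n, ∑ s ∈ range m, ∑ r ∈ range s, hh N (a r z + b s z)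
      = ∑ s ∈ range m, ∑ r ∈ range s, ∑ z ∈ range n, hh N (a r z + b s z) := by
    rw [sum_comm]
    apply sum_congr rfl
    intro s _
    rw [sum_comm]
  rw [h3, sum_comm] at h2
  refine le_trans ?_ h2
  rw [← sum_wt, sum_mul]
  apply sum_le_sum
  intro s hs
  rw [← mul_sum]
  exact Nat.mul_le_mul_left _ (hD s (mem_range.mp hs))

end Vale.Agent.Lib.P040T
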